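import Mathlib

/-!
# P103: topological entropy and the spectral radius on homology, as in the problem text
-/

namespace Vale.Agent.P103F2

open Filter Topology CategoryTheory AlgebraicTopology
open scoped Manifold ContDiff DirectSum

/-- `M` is a nonempty compact smooth manifold without boundary, of dimension `m`. -/
def IsClosedManifold (m : ℕ) (M : Type) [TopologicalSpace M]
    [ChartedSpace (EuclideanSpace ℝ (Fin m)) M] : Prop :=
  T2Space M ∧ IsManifold (𝓡 m) ∞ M ∧ CompactSpace M ∧ Nonempty M

section Entropy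

variable {M : Type}

/-- The metric `d` induces the topology of `M`. -/
def Compatible [t : TopologicalSpace M] (d : MetricSpace M) : Prop :=
  d.toUniformSpace.toTopologicalSpace = t

/-- `d_n(x, y) = max_{0 ≤ j < n} d(f^j x, f^j y)`. -/
noncomputable def dn (d : MetricSpace M) (f : M → M) (n : ℕ) (x y : M) : ℝ :=
  ⨆ j : Fin n, d.dist (f^[j] x) (f^[j] y)

/-- The cardinalities of the sets whose distinct points satisfy `d_n(x, y) > ε`. -/
def sizes (d : MetricSpace M) (f : M → M) (n : ℕ) (ε : ℝ) : Set ℕ∞ :=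
  {k | ∃ E : Set M, (E.Pairwise fun x y => ε < dn d f n x y) ∧ E.encard = k}

/-- `s_f(n, ε)`, the largest of these cardinalities. -/
noncomputable def sep (d : MetricSpace M) (f : M → M) (n : ℕ) (ε : ℝ) : ℕ :=
  (sSup (sizes d f n ε)).toNat

/-- `limsup_n (1 / n) log s_f(n, ε)`. -/
noncomputable def growth (d : MetricSpace M) (f : M → M) (ε : ℝ) : EReal :=
  limsup (fun n : ℕ => ((1 / n * Real.log (sep d f n ε) : ℝ) : EReal)) atTop

/-- The topological entropy `h_top(f)`, the limit of `growth` as `ε` decreases to `0`. -/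
noncomputable def htop (d : MetricSpace M) (f : M → M) : EReal :=
  limUnder (𝓝[>] 0) (growth d f)

end Entropy

/-- The functor `H_k(-; ℝ)`, singular homology with real coefficients. -/
noncomputable abbrev H (k : ℕ) : TopCat.{0} ⥤ ModuleCat.{0} ℝ :=
  (singularHomologyFunctor (ModuleCat.{0} ℝ) k).obj (ModuleCat.of ℝ ℝ)

/-- `H_*(M; ℝ)`, the direct sum of the `H_k(M; ℝ)` for `0 ≤ k ≤ m`. -/
abbrev Hstar (m : ℕ) (M : Type) [TopologicalSpace M] : Type :=
  ⨁ k : Fin (m + 1), (H k).obj (TopCat.of M)

/-- The induced map `f_*` on `H_*(M; ℝ)`. -/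
noncomputable def fstar (m : ℕ) {M : Type} [TopologicalSpace M] (f : C(M, M)) :
    Module.End ℝ (Hstar m M) :=
  DirectSum.lmap fun k => ((H k).map (TopCat.ofHom f)).hom

/-- The moduli of the complex eigenvalues of a real linear map. -/
def moduli {V : Type} [AddCommGroup V] [Module ℝ V] (T : Module.End ℝ V) : Set ℝ :=
  {r | ∃ l : ℂ, Module.End.HasEigenvalue (T.baseChange ℂ) l ∧ ‖l‖ = r}

/-- The spectral radius, the largest of these moduli. -/
noncomputable def rho {V : Type} [AddCommGroup V] [Module ℝ V] (T : Module.End ℝ V) : ℝ :=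
  sSup (moduli T)

end Vale.Agent.P103F2
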