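import Vale.Agent.P103F2.Defs
import Vale.Agent.P103.Statement

/-!
# P103: the topological entropy exists and does not depend on the metric
-/

namespace Vale.Agent.P103F2

open Filter Topology Set

variable {M : Type}

theorem dn_le {d : MetricSpace M} {f : M → M} {n : ℕ} {x y : M} {ε : ℝ} (hε : 0 ≤ ε) :
    dn d f n x y ≤ ε ↔ ∀ j : Fin n, d.dist (f^[j] x) (f^[j] y) ≤ ε :=
  ⟨fun h j => (le_ciSup (f := fun j : Fin n => d.dist (f^[j] x) (f^[j] y))
    (finite_range _).bddAbove j).trans h, fun h => Real.iSup_le h hε⟩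

theorem sizes_nonempty (d : MetricSpace M) (f : M → M) (n : ℕ) (ε : ℝ) :
    (sizes d f n ε).Nonempty := ⟨_, ∅, pairwise_empty _, rfl⟩

theorem sizes_bdd [d : MetricSpace M] [CompactSpace M] {f : M → M} (hf : Continuous f) (n : ℕ)
    {ε : ℝ} (hε : 0 < ε) : ∃ N : ℕ, ∀ k ∈ sizes d f n ε, k ≤ N := by
  let U : M → Set M := fun x => ⋂ j : Fin n, {y | dist (f^[j] y) (f^[j] x) < ε / 2}
  obtain ⟨t, ht⟩ := isCompact_univ.elim_finite_subcover U
    (fun x => isOpen_iInter_of_finite fun j => isOpen_lt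
      ((hf.iterate j).dist continuous_const) continuous_const)
    fun x _ => mem_iUnion.2 ⟨x, mem_iInter.2 fun j => by simpa using hε⟩
  choose g h1 h2 using fun x => mem_iUnion₂.1 (ht (mem_univ x))
  refine ⟨t.card, ?_⟩
  rintro _ ⟨E, hE, rfl⟩
  rw [← encard_coe_eq_coe_finsetCard]
  refine encard_le_encard_of_injOn (f := g) (fun x _ => h1 x) fun x hx y hy hxy => ?_
  by_contra h
  refine (hE hx hy h).not_ge ((dn_le hε.le).2 fun j => ?_)
  have h3 := mem_iInter.1 (h2 x) j
  have h4 := mem_iInter.1 (h2 y) j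
  rw [← hxy] at h4
  exact (dist_triangle_right _ _ _).trans ((add_le_add (le_of_lt h3) (le_of_lt h4)).trans_eq
    (add_halves ε))

theorem sep_greatest [t : TopologicalSpace M] [CompactSpace M] {d : MetricSpace M}
    (hd : Compatible d) {f : M → M} (hf : Continuous f) (n : ℕ) {ε : ℝ} (hε : 0 < ε) :
    IsGreatest (sizes d f n ε) (sep d f n ε) := by
  obtain rfl : _ = t := hd
  obtain ⟨N, hN⟩ := sizes_bdd hf n hε
  have h := (sSup_le hN).trans_lt (ENat.natCast_lt_top N)
  rw [sep, ENat.natCast_toNat h.ne]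
  have := (sizes_nonempty d f n ε).to_subtype
  exact ⟨ENat.sSup_mem_of_nonempty_of_lt_top h, fun _ => le_sSup⟩

theorem one_le_sep [TopologicalSpace M] [CompactSpace M] [Nonempty M] {d : MetricSpace M}
    (hd : Compatible d) {f : M → M} (hf : Continuous f) (n : ℕ) {ε : ℝ} (hε : 0 < ε) :
    1 ≤ sep d f n ε := by
  obtain ⟨x⟩ := ‹Nonempty M›
  exact_mod_cast (sep_greatest hd hf n hε).2 ⟨{x}, pairwise_singleton _ _, encard_singleton x⟩

variable [t : TopologicalSpace M] [CompactSpace M] [Nonempty M] {d d' : MetricSpace M} {f : M → M}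

theorem growth_le (hd : Compatible d) (hd' : Compatible d') (hf : Continuous f) {ε δ : ℝ}
    (hε : 0 < ε) (hδ : 0 < δ) (h : ∀ x y, d'.dist x y ≤ δ → d.dist x y ≤ ε) :
    growth d f ε ≤ growth d' f δ := by
  refine limsup_le_limsup (Eventually.of_forall fun n => EReal.coe_le_coe_iff.2 ?_)
  refine mul_le_mul_of_nonneg_left (Real.log_le_log ?_ ?_) (by positivity)
  · exact_mod_cast one_le_sep hd hf n hε
  · obtain ⟨E, hE, h1⟩ := (sep_greatest hd hf n hε).1
    have := (sep_greatest hd' hf n hδ).2 ⟨E, fun x hx y hy hxy => not_le.1 fun h2 =>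
      (hE hx hy hxy).not_ge ((dn_le hε.le).2 fun j => h _ _ ((dn_le hδ.le).1 h2 j)), h1⟩
    exact_mod_cast this

theorem growth_tendsto' (hd : Compatible d) (hf : Continuous f) :
    Tendsto (growth d f) (𝓝[>] 0) (𝓝 (sSup (growth d f '' Ioi 0))) :=
  AntitoneOn.tendsto_nhdsGT (fun _ h1 _ h2 h => growth_le hd hd hf h2 h1 fun _ _ h3 => h3.trans h)
    (OrderTop.bddAbove _)

theorem htop_eq (hd : Compatible d) (hf : Continuous f) :
    htop d f = sSup (growth d f '' Ioi 0) := (growth_tendsto' hd hf).limUnder_eq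

theorem growth_tendsto (hd : Compatible d) (hf : Continuous f) :
    Tendsto (growth d f) (𝓝[>] 0) (𝓝 (htop d f)) := htop_eq hd hf ▸ growth_tendsto' hd hf

theorem htop_le (hd : Compatible d) (hd' : Compatible d') (hf : Continuous f) :
    htop d f ≤ htop d' f := by
  rw [htop_eq hd hf, htop_eq hd' hf]
  refine sSup_le ?_
  rintro _ ⟨ε, hε, rfl⟩
  have h1 := @Metric.dist_mem_uniformity M d.toPseudoMetricSpace ε hε
  rw [unique_uniformity_of_compact hd hd'] at h1
  obtain ⟨δ, hδ, h2⟩ := (@Metric.mem_uniformity_dist M d'.toPseudoMetricSpace _).1 h1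
  exact le_sSup_of_le ⟨δ / 2, half_pos hδ, rfl⟩ (growth_le hd hd' hf hε (half_pos hδ)
    fun x y h => (h2 (h.trans_lt (half_lt_self hδ))).le)

theorem htop_of_old {M : Type} [d : MetricSpace M] [CompactSpace M] [Nonempty M] {f : M → M}
    (hf : Continuous f) {h : EReal} (H : P103.IsTopEntropy f h) : htop d f = h := by
  refine tendsto_nhds_unique (growth_tendsto rfl hf) (H.congr' ?_)
  filter_upwards [self_mem_nhdsWithin] with ε hε
  unfold growth
  congr 1
  funext n
  have h1 := sep_greatest (d := d) rfl hf n hε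
  have h2 : P103.sepCard f n ε = sep d f n ε := by
    refine le_antisymm (iSup₂_le fun E hE => h1.2 ⟨E, fun x hx y hy => hE x hx y hy,
      encard_coe_eq_coe_finsetCard E⟩) ?_
    obtain ⟨E, hE, h3⟩ := h1.1
    obtain ⟨F, rfl⟩ := (finite_of_encard_eq_coe h3).exists_finset_coe
    rw [← h3, encard_coe_eq_coe_finsetCard]
    exact le_iSup₂_of_le F (fun x hx y hy => hE hx hy) le_rfl
  have h4 : (0 : ℝ) < sep d f n ε := by exact_mod_cast one_le_sep (d := d) rfl hf n hε
  rw [h2, ENat.toENNReal_coe, ← ENNReal.ofReal_natCast, ENNReal.log_ofReal_of_pos h4,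
    one_div_mul_eq_div, EReal.coe_div]
  rfl

end Vale.Agent.P103F2
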