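import Vale.Agent.P103F2.Defs
import Vale.Agent.P267S72.Dual
import Vale.Agent.P246.T.PR2

/-!
# P103: the singular homology of a compact locally acyclic space is finitely generated
-/

namespace Vale.Agent.P103F2

open Vale.Agent.P246.T Vale.Agent.P267S72 Set

variable {X : Type} [TopologicalSpace X]

theorem exists_fg {P Q : Type} [AddCommGroup P] [AddCommGroup Q] (ψ : P →ₗ[ℤ] Q)
    (S : Submodule ℤ P) (h : (S.map ψ).FG) :
    ∃ G : Submodule ℤ P, G.FG ∧ G ≤ S ∧ S ≤ G ⊔ LinearMap.ker ψ := by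
  obtain ⟨t, ht⟩ := h
  have h1 : ∀ y : t, ∃ x ∈ S, ψ x = y := fun y => by
    have : (y : Q) ∈ S.map ψ := ht ▸ Submodule.subset_span y.2
    exact this
  choose g hg hg' using h1
  refine ⟨Submodule.span ℤ (range g), Submodule.fg_span (finite_range g),
    Submodule.span_le.2 (range_subset_iff.2 hg), ?_⟩
  rw [← Submodule.comap_map_eq, ← Submodule.map_le_iff_le_comap, ← ht, Submodule.span_le]
  intro y hy
  exact ⟨g ⟨y, hy⟩, Submodule.subset_span (mem_range_self _), hg' _⟩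

/-- The boundaries of the chains in `U`. -/
noncomputable def Bd (U : Set X) (n : ℕ) : Submodule ℤ (Ch n X) := (Con U (n + 1)).map (bd n)

/-- The image of the homology of `V` in that of `U` is finitely generated. -/
def Small (V U : Set X) (n : ℕ) : Prop :=
  ∃ F : Submodule ℤ (Ch n X), F.FG ∧ ∀ c ∈ Con V n, Cyc n c → c ∈ F ⊔ Bd U n

theorem Small.mono {V V' U : Set X} {n : ℕ} (h : Small V U n) (hV : V' ⊆ V) : Small V' U n := by
  obtain ⟨F, h1, h2⟩ := h
  exact ⟨F, h1, fun c hc => h2 c (PR.Con_mono hV hc)⟩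

theorem up {P : Type} [AddCommGroup P] {F F' B : Submodule ℤ P} (h : F ≤ F') {x : P}
    (hx : x ∈ F ⊔ B) : x ∈ F' ⊔ B := sup_le_sup_right h B hx

theorem con_inter {A B : Set X} {n : ℕ} {c : Ch n X} (h : c ∈ Con A n) (h' : c ∈ Con B n) :
    c ∈ Con (A ∩ B) n := by
  rw [P246.T.Con, Finsupp.mem_supported] at h h' ⊢
  exact fun σ hσ x => ⟨h hσ x, h' hσ x⟩

theorem split {A B : Set X} (hA : IsOpen A) (hB : IsOpen B) {n : ℕ} {c : Ch n X}
    (hc : c ∈ Con (A ∪ B) n) (h : Cyc n c) :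
    ∃ a ∈ Con A n, ∃ b ∈ Con B n, ∃ t ∈ Bd (A ∪ B) n, c = a + b + t := by
  obtain ⟨S, hS⟩ := SD.main X (A ∪ B) A B ⟨A, hA, inter_eq_left.2 subset_union_left⟩
    ⟨B, hB, inter_eq_left.2 subset_union_right⟩ subset_rfl n c hc
  obtain ⟨a, ha, b, hb, hab⟩ := Submodule.mem_sup.1 hS
  have ht : S.t X n c ∈ Con (A ∪ B) (n + 1) := by
    refine SD.supp_map (S.t X n) (fun σ hσ => ?_) hc
    rw [single_eq_push, ← S.t_nat]
    exact push_mem (A := univ) (fun x _ => hσ x) (PR.Con_univ _)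
  refine ⟨a, ha, b, hb, _, ⟨_, ht, rfl⟩, ?_⟩
  rw [hab]
  cases n with
  | zero => rw [S.t_zero]; abel
  | succ n => rw [S.t_succ, show bd n c = 0 from h, map_zero]; abel

theorem small_zero {A B U : Set X} (hA : IsOpen A) (hB : IsOpen B) (hU : A ∪ B ⊆ U)
    (h : Small A U 0) (h' : Small B U 0) : Small (A ∪ B) U 0 := by
  obtain ⟨F, h1, h2⟩ := h
  obtain ⟨F', h3, h4⟩ := h'
  refine ⟨F ⊔ F', h1.sup h3, fun c hc h0 => ?_⟩
  obtain ⟨a, ha, b, hb, t, ht, rfl⟩ := split hA hB hc h0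
  exact add_mem (add_mem (up le_sup_left (h2 a ha trivial))
    (up le_sup_right (h4 b hb trivial)))
    (Submodule.mem_sup_right (Submodule.map_mono (PR.Con_mono hU) ht))

theorem small_succ {A B V W U : Set X} (hA : IsOpen A) (hB : IsOpen B) (hV : A ⊆ V) (hW : B ⊆ W)
    (hU : A ∪ B ⊆ U) {n : ℕ} (h : Small V U (n + 1)) (h' : Small W U (n + 1))
    (h'' : Small (A ∩ B) (V ∩ W) n) : Small (A ∪ B) U (n + 1) := by
  obtain ⟨F, h1, h2⟩ := h
  obtain ⟨F', h3, h4⟩ := h'
  obtain ⟨F₀, h5, h6⟩ := h''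
  let σ : Ch (n + 1) X × Ch (n + 1) X →ₗ[ℤ] Ch (n + 1) X := LinearMap.fst _ _ _ + LinearMap.snd _ _ _
  let S := (Con A (n + 1)).prod (Con B (n + 1)) ⊓ LinearMap.ker ((bd n).comp σ)
  let ψ := (Bd (V ∩ W) n).mkQ.comp ((bd n).comp (LinearMap.fst ℤ _ (Ch (n + 1) X)))
  have h7 : S.map ψ ≤ F₀.map (Bd (V ∩ W) n).mkQ := by
    rintro _ ⟨⟨a, b⟩, ⟨⟨ha, hb⟩, hab⟩, rfl⟩
    have e : bd n a = -bd n b := by
      rw [eq_neg_iff_add_eq_zero, ← map_add]
      exact hab
    obtain ⟨x, hx, y, hy, hxy⟩ := Submodule.mem_sup.1 (h6 (bd n a)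
      (con_inter (PR.bd_mem ha) (e ▸ neg_mem (PR.bd_mem hb)))
      (PR.rcyc_empty.1 (PR.rcyc_bd a)))
    refine ⟨x, hx, ?_⟩
    change _ = (Bd (V ∩ W) n).mkQ (bd n a)
    rw [← hxy, map_add, Submodule.mkQ_apply _ y, (Submodule.Quotient.mk_eq_zero _).2 hy, add_zero]
  obtain ⟨G, h8, h9, h10⟩ := exists_fg ψ S ((h5.map _).of_le h7)
  refine ⟨F ⊔ F' ⊔ G.map σ, (h1.sup h3).sup (h8.map _), fun c hc h0 => ?_⟩
  obtain ⟨a, ha, b, hb, t, ht, rfl⟩ := split hA hB hc h0
  refine add_mem ?_ (Submodule.mem_sup_right (Submodule.map_mono (PR.Con_mono hU) ht))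
  have h11 : (a, b) ∈ S := by
    obtain ⟨u, -, rfl⟩ := ht
    have : bd n (a + b + bd (n + 1) u) = 0 := h0
    rw [map_add, PR.bd_bd, add_zero] at this
    exact ⟨⟨ha, hb⟩, this⟩
  obtain ⟨g, hg, ⟨a', b'⟩, hk, hgk⟩ := Submodule.mem_sup.1 (h10 h11)
  have h12 : (a', b') ∈ S := by
    rw [eq_sub_of_add_eq' hgk]
    exact sub_mem h11 (h9 hg)
  obtain ⟨u, hu, hu'⟩ : bd n a' ∈ Bd (V ∩ W) n := (Submodule.Quotient.mk_eq_zero _).1 hk
  have h13 : bd n (a' + b') = 0 := h12.2
  have e : a + b = σ g + ((a' - u) + (b' + u)) := by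
    have : σ (a, b) = σ g + σ (a', b') := by rw [← hgk, map_add]
    rw [show a + b = σ (a, b) from rfl, this, show σ (a', b') = a' + b' from rfl]
    abel
  rw [e]
  refine add_mem (Submodule.mem_sup_left (Submodule.mem_sup_right ⟨g, hg, rfl⟩)) (add_mem ?_ ?_)
  · refine up (le_sup_left.trans le_sup_left) (h2 _ (sub_mem
      (PR.Con_mono hV h12.1.1) (PR.Con_mono inter_subset_left hu)) ?_)
    change bd n (a' - u) = 0
    rw [map_sub, hu', sub_self]
  · refine up (le_sup_right.trans le_sup_left) (h4 _ (add_mem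
      (PR.Con_mono hW h12.1.2) (PR.Con_mono inter_subset_right hu)) ?_)
    change bd n (b' + u) = 0
    rw [map_add, hu', add_comm, ← map_add, h13]

theorem small_acyc {V U : Set X} (h : PR.Acyc V) (hU : V ⊆ U) {x : X} (hx : x ∈ V) (n : ℕ) :
    Small V U n := by
  cases n with
  | zero =>
    refine ⟨Submodule.span ℤ {ksx 0 x}, Submodule.fg_span_singleton _, fun c hc _ => ?_⟩
    obtain ⟨b, hb, h1⟩ := h.zero (c - PR.wt 0 c • ksx 0 x)
      (sub_mem hc (Submodule.smul_mem _ _ (PR.single_mem (fun _ => hx) 1)))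
      (by rw [map_sub, map_smul, ksx, PR.wt_single, smul_eq_mul, mul_one, sub_self])
    rw [← add_sub_cancel (PR.wt 0 c • ksx 0 x) c]
    exact add_mem (Submodule.mem_sup_left (Submodule.smul_mem _ _
      (Submodule.mem_span_singleton_self _))) (Submodule.mem_sup_right ⟨b, PR.Con_mono hU hb, h1⟩)
  | succ n =>
    refine ⟨⊥, Submodule.fg_bot, fun c hc h0 => ?_⟩
    obtain ⟨b, hb, h1⟩ := h.succ n c hc h0
    exact Submodule.mem_sup_right ⟨b, PR.Con_mono hU hb, h1⟩

theorem wilder [T2Space X] [LocallyCompactSpace X]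
    (hX : ∀ (x : X) (U : Set X), IsOpen U → x ∈ U → ∃ V, IsOpen V ∧ x ∈ V ∧ V ⊆ U ∧ PR.Acyc V)
    (n : ℕ) : ∀ U K : Set X, IsOpen U → IsCompact K → K ⊆ U →
      ∃ V, IsOpen V ∧ K ⊆ V ∧ V ⊆ U ∧ Small V U n := by
  induction n using Nat.strong_induction_on with
  | _ n ih =>
  intro U K hU hK hKU
  suffices h : ∃ L, IsCompact L ∧ K ⊆ L ∧ ∃ V, IsOpen V ∧ L ⊆ V ∧ V ⊆ U ∧ Small V U n by
    obtain ⟨L, -, h1, V, h2, h3, h4⟩ := h
    exact ⟨V, h2, h1.trans h3, h4⟩
  refine hK.induction_on (p := fun s => ∃ L, IsCompact L ∧ s ⊆ L ∧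
    ∃ V, IsOpen V ∧ L ⊆ V ∧ V ⊆ U ∧ Small V U n) ?_ ?_ ?_ ?_
  · refine ⟨∅, isCompact_empty, subset_rfl, ∅, isOpen_empty, subset_rfl, empty_subset _, ⊥,
      Submodule.fg_bot, fun c hc _ => ?_⟩
    rw [PR.Con_empty hc]
    exact zero_mem _
  · rintro s t hst ⟨L, h1, h2, h3⟩
    exact ⟨L, h1, hst.trans h2, h3⟩
  · rintro s t ⟨L, h1, h2, V, h3, h4, h5, h6⟩ ⟨L', h1', h2', V', h3', h4', h5', h6'⟩
    refine ⟨L ∪ L', h1.union h1', union_subset_union h2 h2', ?_⟩
    cases n with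
    | zero => exact ⟨V ∪ V', h3.union h3', union_subset_union h4 h4', union_subset h5 h5',
        small_zero h3 h3' (union_subset h5 h5') h6 h6'⟩
    | succ n =>
      obtain ⟨N, h7, h8, h9⟩ := exists_compact_between h1 h3 h4
      obtain ⟨N', h7', h8', h9'⟩ := exists_compact_between h1' h3' h4'
      obtain ⟨W, -, h10, -, h11⟩ := ih n n.lt_succ_self (V ∩ V') (N ∩ N') (h3.inter h3')
        (h7.inter h7') (inter_subset_inter h9 h9')
      have h12 := union_subset ((interior_subset.trans h9).trans h5)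
        ((interior_subset.trans h9').trans h5')
      exact ⟨interior N ∪ interior N', isOpen_interior.union isOpen_interior,
        union_subset_union h8 h8', h12, small_succ isOpen_interior isOpen_interior
          (interior_subset.trans h9) (interior_subset.trans h9') h12 h6 h6'
          (h11.mono ((inter_subset_inter interior_subset interior_subset).trans h10))⟩
  · intro x hx
    obtain ⟨V, h1, h2, h3, h4⟩ := hX x U hU (hKU hx)
    obtain ⟨L, h5, h6, h7⟩ := exists_compact_subset h1 h2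
    exact ⟨L, mem_nhdsWithin_of_mem_nhds (mem_interior_iff_mem_nhds.1 h6), L, h5, subset_rfl, V,
      h1, h7, h3, small_acyc h4 h3 h2 n⟩

theorem finite_of_small {n : ℕ} (h : Small (univ : Set X) univ n) :
    FiniteDimensional ℝ (HS ℝ X n) := by
  obtain ⟨F, ⟨t, rfl⟩, h⟩ := h
  have := injective_real
  let π : LinearMap.ker (cb X n) →ₗ[ℝ] (t → ℝ) :=
    { toFun := fun φ z => val φ.1 z.1
      map_add' := fun φ φ' => funext fun z => by
        simp [val, Finsupp.linearCombination_apply, Finsupp.sum, Finset.sum_add_distrib]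
      map_smul' := fun r φ => funext fun z => by
        simp [val, Finsupp.linearCombination_apply, Finsupp.sum, Finset.mul_sum, mul_left_comm] }
  have h1 : LinearMap.ker π ≤ LinearMap.ker (evH ℝ X n) := fun φ hφ => by
    have h2 : ∀ c, Cyc n c → val φ.1 c = 0 := fun c hc => by
      refine (sup_le (Submodule.span_le.2 fun z hz => congrFun hφ ⟨z, hz⟩) ?_ :
        _ ≤ LinearMap.ker (val φ.1)) (h c (PR.Con_univ c) hc)
      rintro _ ⟨b, -, rfl⟩
      rw [LinearMap.mem_ker, val_bd, show cobd φ.1 = fun _ => 0 from φ.2, val]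
      simp [Finsupp.linearCombination_apply]
    cases n with
    | zero =>
      have : φ = 0 := Subtype.ext (funext fun σ => (val_single φ.1 σ).symm.trans (h2 _ trivial))
      rw [this]
      exact zero_mem _
    | succ n =>
      obtain ⟨l, hl⟩ := exists_fac (bd n) (val φ.1) h2
      refine (evH_eq_zero_iff ℝ φ).2 ⟨fun σ => l (Finsupp.single σ 1), funext fun σ => ?_⟩
      change cobd (fun σ => l (Finsupp.single σ 1)) σ = φ.1 σ
      rw [← val_single (cobd _) σ, ← val_bd, val_lin, hl, val_single]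
  have h3 : Module.Finite ℝ (LinearMap.ker (cb X n) ⧸ LinearMap.ker π) :=
    Module.Finite.equiv π.quotKerEquivRange.symm
  have h4 : Module.Finite ℝ (Module.Dual ℝ (HS ℝ X n)) :=
    Module.Finite.of_surjective ((LinearMap.ker π).liftQ _ h1) fun m => by
      obtain ⟨φ, rfl⟩ := evH_surjective ℝ (X := X) n m
      exact ⟨Submodule.Quotient.mk φ, rfl⟩
  exact (Module.finite_dual_iff ℝ).1 h4

theorem finite_homology {E : Type} [NormedAddCommGroup E] [NormedSpace ℝ E] [ChartedSpace E X]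
    [T2Space X] [CompactSpace X] (n : ℕ) : FiniteDimensional ℝ ((H n).obj (TopCat.of X)) := by
  suffices hX : _ by
    obtain ⟨V, -, h1, -, h2⟩ := wilder (X := X) hX n univ univ isOpen_univ isCompact_univ subset_rfl
    exact finite_of_small (h2.mono h1)
  intro x U hU hx
  let e := chartAt E x
  have h1 : x ∈ e.source := mem_chart_source E x
  obtain ⟨r, h2, h3⟩ := Metric.isOpen_iff.1 (e.symm.isOpen_inter_preimage hU) (e x)
    ⟨e.map_source h1, by simpa [e.left_inv h1] using hx⟩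
  have h4 : Metric.ball (e x) r ⊆ e.symm.source := h3.trans inter_subset_left
  refine ⟨e.symm '' Metric.ball (e x) r, e.symm.isOpen_image_of_subset_source Metric.isOpen_ball h4,
    ⟨e x, Metric.mem_ball_self h2, e.left_inv h1⟩, image_subset_iff.2 (h3.trans inter_subset_right),
    ?_⟩
  have h5 := (convex_ball (e x) r).contractibleSpace ⟨_, Metric.mem_ball_self h2⟩
  have h6 := (e.symm.homeomorphOfImageSubsetSource h4 rfl).symm.contractibleSpace
  exact PR.acyc_contractible_sub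

end Vale.Agent.P103F2
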