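import Vale.Agent.P103F2.Fin
import Vale.Agent.P103F2.Ent
import Vale.Agent.P103.H308.Main

/-!
# P103: the spectral radius, and the counterexample with charts to Euclidean space
-/

namespace Vale.Agent.P103F2

open Filter Topology Set CategoryTheory
open scoped Manifold ContDiff TensorProduct

section Rho

variable {V : Type} [AddCommGroup V] [Module ℝ V] {T : Module.End ℝ V}

theorem mem_moduli {x : V} (hx : x ≠ 0) {l : ℝ} (hl : 0 ≤ l) (h : T x = l • x) :
    l ∈ moduli T := by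
  refine ⟨l, Module.End.hasEigenvalue_of_hasEigenvector (x := (1 : ℂ) ⊗ₜ[ℝ] x) ⟨?_, ?_⟩, ?_⟩
  · rw [Module.End.mem_eigenspace_iff, LinearMap.baseChange_tmul, h, TensorProduct.tmul_smul]
    rfl
  · rwa [Ne, Module.FaithfullyFlat.one_tmul_eq_zero_iff]
  · rw [Complex.norm_real, Real.norm_of_nonneg hl]

theorem rho_greatest [FiniteDimensional ℝ V] (h : (moduli T).Nonempty) :
    IsGreatest (moduli T) (rho T) := by
  have h1 : (moduli T).Finite := (Module.End.finite_hasEigenvalue (T.baseChange ℂ)).image _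
  exact ⟨h.csSup_mem h1, fun _ => le_csSup h1.bddAbove⟩

end Rho

variable {m : ℕ} {M : Type} [TopologicalSpace M]

theorem mem_fstar {f : C(M, M)} (k : Fin (m + 1)) {x : (H k).obj (TopCat.of M)} (hx : x ≠ 0)
    {l : ℝ} (hl : 0 ≤ l) (h : ((H k).map (TopCat.ofHom f)).hom x = l • x) :
    l ∈ moduli (fstar m f) := by
  refine mem_moduli (x := DirectSum.lof ℝ _ (fun k : Fin (m + 1) => (H k).obj (TopCat.of M)) k x)
    (fun h0 => hx (DirectSum.of_injective k (h0.trans (map_zero _).symm))) hl ?_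
  rw [fstar, DirectSum.lmap_lof, h, map_smul]

theorem exists_fixed [Nonempty M] [FiniteDimensional ℝ ((H 0).obj (TopCat.of M))] (f : C(M, M)) :
    ∃ x ≠ 0, ((H 0).map (TopCat.ofHom f)).hom x = (1 : ℝ) • x := by
  obtain ⟨p⟩ := ‹Nonempty M›
  let c : TopCat.of M ⟶ TopCat.of Unit := TopCat.ofHom (.const _ ())
  let s : TopCat.of Unit ⟶ TopCat.of M := TopCat.ofHom (.const _ p)
  by_contra h
  let T : Module.End ℝ ((H 0).obj (TopCat.of M)) :=
    ((H 0).map (TopCat.ofHom f)).hom - LinearMap.id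
  have h1 : Function.Injective T :=
    (injective_iff_map_eq_zero _).2 fun x hx => by_contra fun h0 =>
      h ⟨x, h0, (sub_eq_zero.1 hx).trans (one_smul _ _).symm⟩
  have h2 : ∀ y, ((H 0).map c).hom y = 0 := fun y => by
    obtain ⟨x, rfl⟩ := LinearMap.surjective_of_injective h1 y
    rw [LinearMap.sub_apply, map_sub, ← ModuleCat.comp_apply, ← Functor.map_comp]
    exact sub_self _
  let e := (asIso (TopCat.singularHomology₀ε (TopCat.of Unit) (ModuleCat.of ℝ ℝ))).toLinearEquiv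
  have h3 := h2 (((H 0).map s).hom (e.symm (1 : ℝ)))
  rw [← ModuleCat.comp_apply, ← Functor.map_comp, show s ≫ c = 𝟙 _ from rfl,
    CategoryTheory.Functor.map_id] at h3
  exact one_ne_zero (e.symm.map_eq_zero_iff.1 h3)

theorem well_defined [ChartedSpace (EuclideanSpace ℝ (Fin m)) M] (hM : IsClosedManifold m M)
    (f : C(M, M)) : FiniteDimensional ℝ (Hstar m M) ∧
      IsGreatest (moduli (fstar m f)) (rho (fstar m f)) ∧ 1 ≤ rho (fstar m f) := by
  obtain ⟨h1, -, h2, h3⟩ := hM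
  have h4 := fun k => finite_homology (X := M) (E := EuclideanSpace ℝ (Fin m)) k
  have h5 : FiniteDimensional ℝ (Hstar m M) := inferInstance
  obtain ⟨x, h6, h7⟩ := exists_fixed f
  have h8 := mem_fstar (m := m) 0 h6 zero_le_one h7
  exact ⟨h5, rho_greatest ⟨_, h8⟩, (rho_greatest ⟨_, h8⟩).2 h8⟩

theorem exists_compatible [ChartedSpace (EuclideanSpace ℝ (Fin m)) M] (hM : IsClosedManifold m M) :
    ∃ d : MetricSpace M, Compatible d := by
  obtain ⟨h1, -, h2, -⟩ := hM
  have := Manifold.metrizableSpace (𝓡 m) M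
  exact ⟨TopologicalSpace.metrizableSpaceMetric M, rfl⟩

theorem rechart {E G : Type} [NormedAddCommGroup E] [NormedSpace ℝ E] [TopologicalSpace G]
    (I : ModelWithCorners ℝ E G) [I.Boundaryless] [ChartedSpace G M] [IsManifold I ∞ M] :
    ∃ _ : ChartedSpace E M, IsManifold 𝓘(ℝ, E) ∞ M ∧
      ∀ f : M → M, ContMDiff I I 1 f → ContMDiff 𝓘(ℝ, E) 𝓘(ℝ, E) 1 f := by
  let φ := I.toHomeomorph.toOpenPartialHomeomorph
  let _ : ChartedSpace E M :=
    { atlas := (fun e => e.trans φ) '' atlas G M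
      chartAt := fun x => (chartAt G x).trans φ
      mem_chart_source := fun x => ⟨mem_chart_source G x, trivial⟩
      chart_mem_atlas := fun x => ⟨_, chart_mem_atlas G x, rfl⟩ }
  refine ⟨_, isManifold_of_contDiffOn _ _ _ ?_, fun f hf x => ?_⟩
  · rintro _ _ ⟨e, he, rfl⟩ ⟨e', he', rfl⟩
    refine ((contDiffGroupoid ∞ I).compatible he he').1.mono fun y hy => ?_
    exact ⟨⟨hy.1.1.2, hy.1.2.1⟩, I.range_eq_univ ▸ mem_univ _⟩
  · obtain ⟨h1, h2⟩ := contMDiffAt_iff.1 (hf x)
    refine contMDiffAt_iff.2 ⟨h1, ?_⟩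
    rw [I.range_eq_univ] at h2
    exact h2.mono (subset_univ _)

theorem htop_all {M : Type} [d : MetricSpace M] [CompactSpace M] [Nonempty M] {f : M → M}
    (hf : Continuous f) {h : EReal} (H : P103.IsTopEntropy f h) :
    ∀ d' : MetricSpace M, @Compatible M d.toUniformSpace.toTopologicalSpace d' → htop d' f = h :=
  fun _ hd => (le_antisymm (htop_le (t := d.toUniformSpace.toTopologicalSpace) hd rfl hf)
    (htop_le (t := d.toUniformSpace.toTopologicalSpace) rfl hd hf)).trans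
    (htop_of_old (d := d) hf H)

theorem counter : ∃ (m : ℕ) (M : Type) (_ : TopologicalSpace M)
    (_ : ChartedSpace (EuclideanSpace ℝ (Fin m)) M), IsClosedManifold m M ∧ ConnectedSpace M ∧
    ∀ R : ℝ, ∃ f : C(M, M), ContMDiff (𝓡 m) (𝓡 m) 1 f ∧
      (∀ d : MetricSpace M, Compatible d → htop d f = 0) ∧ R ≤ rho (fstar m f) := by
  obtain ⟨P⟩ := P103.exists_Par
  have h1 : ConnectedSpace Circle := P103.connectedSpace_circle
  have h2 : ConnectedSpace (P103.Sph ℂ) := P103.connectedSpace_Sph ℂ (n := 2) (by norm_num) Fact.out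
  have h3 : ConnectedSpace (P103.Sph P.V) :=
    P103.connectedSpace_Sph P.V (n := 2 * P.p) (by have := P.nt.two_le; omega) Fact.out
  obtain ⟨x, hx⟩ := P.hasEigenvalue_two.exists_hasEigenvector
  let L : (EuclideanSpace ℝ (Fin 1) × EuclideanSpace ℝ (Fin 2) × EuclideanSpace ℝ (Fin (2 * P.p)))
      ≃L[ℝ] EuclideanSpace ℝ (Fin (2 * P.p + 3)) :=
    ContinuousLinearEquiv.ofFinrankEq (by simp; omega)
  have h0 : (((𝓡 1).prod ((𝓡 2).prod (𝓡 (2 * P.p)))).transContinuousLinearEquiv L).Boundaryless :=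
    ⟨by rw [ModelWithCorners.transContinuousLinearEquiv_range,
      ModelWithCorners.range_eq_univ, image_univ, L.surjective.range_eq]⟩
  obtain ⟨c, h4, h5⟩ := rechart (M := Circle × (P103.Sph ℂ × P103.Sph P.V))
    (((𝓡 1).prod ((𝓡 2).prod (𝓡 (2 * P.p)))).transContinuousLinearEquiv L)
  have hM : IsClosedManifold (2 * P.p + 3) (Circle × (P103.Sph ℂ × P103.Sph P.V)) :=
    ⟨inferInstance, h4, inferInstance, inferInstance⟩
  refine ⟨2 * P.p + 3, _, _, c, hM, inferInstance, fun R => ?_⟩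
  obtain ⟨k, hk⟩ := pow_unbounded_of_one_lt R (one_lt_two (α := ℝ))
  have h6 := P.fM_continuous.iterate (k + 1)
  refine ⟨P103.H308.powC ⟨P.fM, P.fM_continuous⟩ (k + 1), h5 _ ?_,
    htop_all h6 (P103.H308.isTopEntropy_iter P.fM_entropy k.succ_pos), ?_⟩
  · rw [L.contMDiff_transContinuousLinearEquiv_left, L.contMDiff_transContinuousLinearEquiv_right]
    exact P103.H308.contMDiff_iter P.fM_contMDiff _
  · exact (hk.le.trans (pow_le_pow_right₀ one_le_two k.le_succ)).trans
      ((well_defined hM _).2.1.2 (mem_fstar ⟨2, by omega⟩ hx.2 (by positivity)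
        (P103.H308.homologyMap_powC _ 2 x (Module.End.mem_eigenspace_iff.1 hx.1) _)))

end Vale.Agent.P103F2
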